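import Mathlib

namespace Vale.Agent.Results.P040.CollinearClass

open Finset

/-- explicit crossing point of two segments from the axis -/
lemma seg_cross (α α' x y x' y' : ℝ)
    (h : (0 < y * (α' - α) ∧ 0 < y' * (α' - α) ∧ 0 < (x - α) * y' - (x' - α) * y ∧
            0 < (x - α') * y' - (x' - α') * y) ∨
         (y * (α' - α) < 0 ∧ y' * (α' - α) < 0 ∧ (x - α) * y' - (x' - α) * y < 0 ∧
            (x - α') * y' - (x' - α') * y < 0)) :
    (openSegment ℝ ((α, 0) : ℝ × ℝ) (x, y) ∩ openSegment ℝ ((α', 0) : ℝ × ℝ) (x', y')).Nonempty := by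
  set W : ℝ := (x - α) * y' - (x' - α') * y with hW
  have hW1 : W = y' * (α' - α) + ((x - α') * y' - (x' - α') * y) := by rw [hW]; ring
  have hW2 : W = y * (α' - α) + ((x - α) * y' - (x' - α) * y) := by rw [hW]; ring
  have hW0 : W ≠ 0 := by
    rcases h with ⟨h1, h2, h3, h4⟩ | ⟨h1, h2, h3, h4⟩
    · have : 0 < W := by rw [hW1]; linarith
      exact ne_of_gt this
    · have : W < 0 := by rw [hW1]; linarith
      exact ne_of_lt this
  refine ⟨(α + (y' * (α' - α) / W) * (x - α), (y' * (α' - α) / W) * y), ?_, ?_⟩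
  · refine ⟨((x - α') * y' - (x' - α') * y) / W, y' * (α' - α) / W, ?_, ?_, ?_, ?_⟩
    · rcases h with ⟨h1, h2, h3, h4⟩ | ⟨h1, h2, h3, h4⟩
      · exact div_pos h4 (by rw [hW1]; linarith)
      · exact div_pos_of_neg_of_neg h4 (by rw [hW1]; linarith)
    · rcases h with ⟨h1, h2, h3, h4⟩ | ⟨h1, h2, h3, h4⟩
      · exact div_pos h2 (by rw [hW1]; linarith)
      · exact div_pos_of_neg_of_neg h2 (by rw [hW1]; linarith)
    · rw [← add_div, add_comm, ← hW1, div_self hW0]
    · ext
      · simp only [Prod.smul_mk, Prod.mk_add_mk, smul_eq_mul]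
        field_simp
        rw [hW]; ring
      · simp only [Prod.smul_mk, Prod.mk_add_mk, smul_eq_mul]
        ring
  · refine ⟨((x - α) * y' - (x' - α) * y) / W, y * (α' - α) / W, ?_, ?_, ?_, ?_⟩
    · rcases h with ⟨h1, h2, h3, h4⟩ | ⟨h1, h2, h3, h4⟩
      · exact div_pos h3 (by rw [hW1]; linarith)
      · exact div_pos_of_neg_of_neg h3 (by rw [hW1]; linarith)
    · rcases h with ⟨h1, h2, h3, h4⟩ | ⟨h1, h2, h3, h4⟩
      · exact div_pos h1 (by rw [hW1]; linarith)
      · exact div_pos_of_neg_of_neg h1 (by rw [hW1]; linarith)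
    · rw [← add_div, add_comm, ← hW2, div_self hW0]
    · ext
      · simp only [Prod.smul_mk, Prod.mk_add_mk, smul_eq_mul]
        field_simp
        rw [hW]; ring
      · simp only [Prod.smul_mk, Prod.mk_add_mk, smul_eq_mul]
        field_simp
        ring

/-- for two apexes on the same side and two base points on the same side of the line through
the apexes, one of the two pairings of the four points gives crossing segments -/
lemma cross_either (α α' x y x' y' : ℝ)
    (hy : (0 < y ∧ 0 < y') ∨ (y < 0 ∧ y' < 0))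
    (hΔ : α ≠ α')
    (hD : (0 < (x - α) * y' - (x' - α) * y ∧ 0 < (x - α') * y' - (x' - α') * y) ∨
          ((x - α) * y' - (x' - α) * y < 0 ∧ (x - α') * y' - (x' - α') * y < 0)) :
    (openSegment ℝ ((α, 0) : ℝ × ℝ) (x, y) ∩ openSegment ℝ ((α', 0) : ℝ × ℝ) (x', y')).Nonempty ∨
    (openSegment ℝ ((α, 0) : ℝ × ℝ) (x', y') ∩ openSegment ℝ ((α', 0) : ℝ × ℝ) (x, y)).Nonempty := by
  have hΔ' : 0 < α' - α ∨ α' - α < 0 := by
    rcases lt_or_gt_of_ne hΔ with h | h
    · left; linarith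
    · right; linarith
  rcases hy with ⟨h1, h2⟩ | ⟨h1, h2⟩ <;> rcases hΔ' with h3 | h3 <;>
    rcases hD with ⟨h4, h5⟩ | ⟨h4, h5⟩
  · left; apply seg_cross; left
    exact ⟨mul_pos h1 h3, mul_pos h2 h3, h4, h5⟩
  · right; apply seg_cross; left
    exact ⟨mul_pos h2 h3, mul_pos h1 h3, by linarith, by linarith⟩
  · right; apply seg_cross; right
    exact ⟨mul_neg_of_pos_of_neg h2 h3, mul_neg_of_pos_of_neg h1 h3, by linarith, by linarith⟩
  · left; apply seg_cross; right
    exact ⟨mul_neg_of_pos_of_neg h1 h3, mul_neg_of_pos_of_neg h2 h3, h4, h5⟩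
  · right; apply seg_cross; right
    exact ⟨mul_neg_of_neg_of_pos h2 h3, mul_neg_of_neg_of_pos h1 h3, by linarith, by linarith⟩
  · left; apply seg_cross; right
    exact ⟨mul_neg_of_neg_of_pos h1 h3, mul_neg_of_neg_of_pos h2 h3, h4, h5⟩
  · left; apply seg_cross; left
    exact ⟨mul_pos_of_neg_of_neg h1 h3, mul_pos_of_neg_of_neg h2 h3, h4, h5⟩
  · right; apply seg_cross; left
    exact ⟨mul_pos_of_neg_of_neg h2 h3, mul_pos_of_neg_of_neg h1 h3, by linarith, by linarith⟩

lemma numeric (m l r : ℕ) (h : l + r = m) :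
    2 * ((m / 2) * ((m - 1) / 2)) ≤ (l * l - l) + (r * r - r) := by
  have hl : l * l - l = l * (l - 1) := by
    rcases l with _ | l
    · simp
    · simp [Nat.mul_succ, Nat.succ_mul]
  have hr : r * r - r = r * (r - 1) := by
    rcases r with _ | r
    · simp
    · simp [Nat.mul_succ, Nat.succ_mul]
  have hl' : ((l * l - l : ℕ) : ℤ) = (l : ℤ) * l - l := by
    have : l ≤ l * l := Nat.le_mul_self l
    push_cast [Nat.cast_sub this]; ring
  have hr' : ((r * r - r : ℕ) : ℤ) = (r : ℤ) * r - r := by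
    have : r ≤ r * r := Nat.le_mul_self r
    push_cast [Nat.cast_sub this]; ring
  rcases Nat.even_or_odd' m with ⟨k, hk | hk⟩
  · have e1 : m / 2 = k := by omega
    have e2 : (m - 1) / 2 = k - 1 := by omega
    rw [e1, e2]
    rcases k with _ | k
    · simp
    · simp only [Nat.add_sub_cancel]
      zify
      rw [hl', hr']
      have hm : (l : ℤ) + r = 2 * (k + 1) := by
        have : l + r = 2 * (k + 1) := by omega
        exact_mod_cast this
      nlinarith [sq_nonneg ((l : ℤ) - r)]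
  · have e1 : m / 2 = k := by omega
    have e2 : (m - 1) / 2 = k := by omega
    rw [e1, e2]
    zify
    rw [hl', hr']
    have hm : (l : ℤ) + r = 2 * k + 1 := by
      have : l + r = 2 * k + 1 := by omega
      exact_mod_cast this
    have hne : (l : ℤ) - r ≠ 0 := by omega
    have hpos : 0 < ((l : ℤ) - r) ^ 2 := by positivity
    nlinarith [hpos]

lemma pairs_count (m : ℕ) (P : Fin m → Prop) [DecidablePred P] :
    (m / 2) * ((m - 1) / 2) ≤
      ((univ : Finset (Fin m × Fin m)).filter (fun p => p.1 < p.2 ∧ (P p.1 ↔ P p.2))).card := by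
  set T := (univ : Finset (Fin m × Fin m)).filter (fun p => p.1 < p.2 ∧ (P p.1 ↔ P p.2)) with hT
  set T' := (univ : Finset (Fin m × Fin m)).filter (fun p => p.2 < p.1 ∧ (P p.1 ↔ P p.2)) with hT'
  set S1 := (univ : Finset (Fin m)).filter P with hS1
  set S2 := (univ : Finset (Fin m)).filter (fun i => ¬ P i) with hS2
  have hswap : T'.card = T.card := by
    apply Finset.card_bij (fun p _ => (p.2, p.1))
    · intro p hp
      simp only [hT', hT, mem_filter, mem_univ, true_and] at hp ⊢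
      exact ⟨hp.1, hp.2.symm⟩
    · intro p _ q _ h
      simp only [Prod.mk.injEq] at h
      exact Prod.ext h.2 h.1
    · intro p hp
      refine ⟨(p.2, p.1), ?_, rfl⟩
      simp only [hT', hT, mem_filter, mem_univ, true_and] at hp ⊢
      exact ⟨hp.1, hp.2.symm⟩
  have hdisj : Disjoint T T' := by
    rw [Finset.disjoint_left]
    intro p hp hp'
    simp only [hT', hT, mem_filter, mem_univ, true_and] at hp hp'
    exact absurd hp.1 (not_lt.mpr hp'.1.le)
  have hdisj2 : Disjoint S1.offDiag S2.offDiag := by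
    rw [Finset.disjoint_left]
    intro p hp hp'
    simp only [hS1, hS2, mem_offDiag, mem_filter, mem_univ, true_and] at hp hp'
    exact hp'.1 hp.1
  have hun : T ∪ T' = S1.offDiag ∪ S2.offDiag := by
    ext p
    simp only [hT, hT', hS1, hS2, mem_union, mem_offDiag, mem_filter, mem_univ, true_and]
    constructor
    · rintro (⟨h1, h2⟩ | ⟨h1, h2⟩)
      · by_cases hp : P p.1
        · left; exact ⟨hp, h2.mp hp, ne_of_lt h1⟩
        · right; exact ⟨hp, fun h => hp (h2.mpr h), ne_of_lt h1⟩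
      · by_cases hp : P p.1
        · left; exact ⟨hp, h2.mp hp, ne_of_gt h1⟩
        · right; exact ⟨hp, fun h => hp (h2.mpr h), ne_of_gt h1⟩
    · rintro (⟨h1, h2, h3⟩ | ⟨h1, h2, h3⟩)
      · rcases lt_or_gt_of_ne h3 with h | h
        · left; exact ⟨h, by simp [h1, h2]⟩
        · right; exact ⟨h, by simp [h1, h2]⟩
      · rcases lt_or_gt_of_ne h3 with h | h
        · left; exact ⟨h, by simp [h1, h2]⟩
        · right; exact ⟨h, by simp [h1, h2]⟩
  have hcard : 2 * T.card = (S1.card * S1.card - S1.card) + (S2.card * S2.card - S2.card) := by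
    have := congrArg Finset.card hun
    rw [Finset.card_union_of_disjoint hdisj, Finset.card_union_of_disjoint hdisj2, hswap,
      Finset.offDiag_card, Finset.offDiag_card] at this
    omega
  have hsum : S1.card + S2.card = m := by
    have := Finset.card_filter_add_card_filter_not (s := (univ : Finset (Fin m))) P
    simpa [hS1, hS2] using this
  have := numeric m S1.card S2.card hsum
  omega

lemma det_ne_zero (α : ℝ) (p q : ℝ × ℝ) (hp : p.2 ≠ 0)
    (h : ¬ Collinear ℝ {((α, 0) : ℝ × ℝ), p, q}) :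
    (p.1 - α) * q.2 - (q.1 - α) * p.2 ≠ 0 := by
  intro h0
  apply h
  rw [collinear_iff_of_mem (p₀ := ((α, 0) : ℝ × ℝ)) (by simp)]
  refine ⟨(p.1 - α, p.2), ?_⟩
  intro z hz
  simp only [Set.mem_insert_iff, Set.mem_singleton_iff] at hz
  rcases hz with rfl | rfl | rfl
  · exact ⟨0, by simp⟩
  · refine ⟨1, ?_⟩
    ext <;> simp
  · refine ⟨z.2 / p.2, ?_⟩
    ext
    · simp only [vadd_eq_add, Prod.smul_mk, smul_eq_mul, Prod.mk_add_mk]
      field_simp
      linarith
    · simp only [vadd_eq_add, Prod.smul_mk, smul_eq_mul, Prod.mk_add_mk]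
      field_simp
      ring

/-- **Zarankiewicz's bound for straight-line drawings with one collinear colour class.**
The `m` vertices of one class are the points `(a i, 0)` of a line, the `n` vertices of the other
class are arbitrary points `b j` off that line, all edges are straight segments, and no vertex
`(a i, 0)` is collinear with two vertices `b j`, `b j'` (otherwise two edges overlap).
Then at least `⌊m/2⌋⌊(m-1)/2⌋⌊n/2⌋⌊(n-1)/2⌋` unordered pairs of edges cross. -/
theorem result (m n : ℕ) (a : Fin m → ℝ) (b : Fin n → ℝ × ℝ)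
    (ha : Function.Injective a) (hb : ∀ j, (b j).2 ≠ 0)
    (hgp : ∀ i j j', j ≠ j' → ¬ Collinear ℝ {((a i, 0) : ℝ × ℝ), b j, b j'}) :
    ((m / 2) * ((m - 1) / 2)) * ((n / 2) * ((n - 1) / 2)) ≤
      Set.ncard {z : (Fin m × Fin m) × (Fin n × Fin n) |
        z.1.1 < z.1.2 ∧ z.2.1 ≠ z.2.2 ∧
          (openSegment ℝ ((a z.1.1, 0) : ℝ × ℝ) (b z.2.1) ∩
            openSegment ℝ ((a z.1.2, 0) : ℝ × ℝ) (b z.2.2)).Nonempty} := by
  classical
  set C := (univ : Finset ((Fin m × Fin m) × (Fin n × Fin n))).filter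
        (fun z => z.1.1 < z.1.2 ∧ z.2.1 ≠ z.2.2 ∧
          (openSegment ℝ ((a z.1.1, 0) : ℝ × ℝ) (b z.2.1) ∩
            openSegment ℝ ((a z.1.2, 0) : ℝ × ℝ) (b z.2.2)).Nonempty) with hC
  have hset : {z : (Fin m × Fin m) × (Fin n × Fin n) |
        z.1.1 < z.1.2 ∧ z.2.1 ≠ z.2.2 ∧
          (openSegment ℝ ((a z.1.1, 0) : ℝ × ℝ) (b z.2.1) ∩
            openSegment ℝ ((a z.1.2, 0) : ℝ × ℝ) (b z.2.2)).Nonempty} = (C : Set _) := by
    ext z
    simp [hC]
  rw [hset, Set.ncard_coe_finset]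
  -- orientation determinant
  let D : Fin n × Fin n → Fin m → ℝ :=
    fun q i => ((b q.1).1 - a i) * (b q.2).2 - ((b q.2).1 - a i) * (b q.1).2
  have hD : ∀ q : Fin n × Fin n, q.1 ≠ q.2 → ∀ i, D q i ≠ 0 := by
    intro q hq i
    exact det_ne_zero (a i) (b q.1) (b q.2) (hb _) (hgp i q.1 q.2 hq)
  let U : Finset (Fin n × Fin n) :=
    (univ : Finset (Fin n × Fin n)).filter
      (fun q => q.1 < q.2 ∧ (0 < (b q.1).2 ↔ 0 < (b q.2).2))
  let T : Fin n × Fin n → Finset (Fin m × Fin m) := fun q =>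
    (univ : Finset (Fin m × Fin m)).filter
      (fun p => p.1 < p.2 ∧ (0 < D q p.1 ↔ 0 < D q p.2))
  have hU : (n / 2) * ((n - 1) / 2) ≤ U.card := pairs_count n (fun j => 0 < (b j).2)
  have hTq : ∀ q, (m / 2) * ((m - 1) / 2) ≤ (T q).card := fun q =>
    pairs_count m (fun i => 0 < D q i)
  let X : Finset (Σ _ : Fin n × Fin n, Fin m × Fin m) := U.sigma T
  have hX : ((m / 2) * ((m - 1) / 2)) * ((n / 2) * ((n - 1) / 2)) ≤ X.card := by
    rw [Finset.card_sigma]
    calc ((m / 2) * ((m - 1) / 2)) * ((n / 2) * ((n - 1) / 2))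
        ≤ ((m / 2) * ((m - 1) / 2)) * U.card := Nat.mul_le_mul_left _ hU
      _ = U.card • ((m / 2) * ((m - 1) / 2)) := by rw [smul_eq_mul, mul_comm]
      _ ≤ ∑ q ∈ U, (T q).card := Finset.card_nsmul_le_sum _ _ _ (fun q _ => hTq q)
  refine hX.trans ?_
  let f : ((Fin m × Fin m) × (Fin n × Fin n)) → (Σ _ : Fin n × Fin n, Fin m × Fin m) :=
    fun z => ⟨(min z.2.1 z.2.2, max z.2.1 z.2.2), z.1⟩
  apply Finset.card_le_card_of_surjOn f
  rintro ⟨q, p⟩ hx
  have hx' : q ∈ U ∧ p ∈ T q := by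
    have := Finset.mem_coe.mp hx
    simpa [X, Finset.mem_sigma] using this
  obtain ⟨hq, hp⟩ := hx'
  simp only [U, T, mem_filter, mem_univ, true_and] at hq hp
  obtain ⟨hq1, hq2⟩ := hq
  obtain ⟨hp1, hp2⟩ := hp
  have hy : (0 < (b q.1).2 ∧ 0 < (b q.2).2) ∨ ((b q.1).2 < 0 ∧ (b q.2).2 < 0) := by
    by_cases h : 0 < (b q.1).2
    · left; exact ⟨h, hq2.mp h⟩
    · right
      have h' : ¬ 0 < (b q.2).2 := fun h2 => h (hq2.mpr h2)
      exact ⟨lt_of_le_of_ne (not_lt.mp h) (hb _), lt_of_le_of_ne (not_lt.mp h') (hb _)⟩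
  have hDD : (0 < D q p.1 ∧ 0 < D q p.2) ∨ (D q p.1 < 0 ∧ D q p.2 < 0) := by
    by_cases h : 0 < D q p.1
    · left; exact ⟨h, hp2.mp h⟩
    · right
      have h' : ¬ 0 < D q p.2 := fun h2 => h (hp2.mpr h2)
      exact ⟨lt_of_le_of_ne (not_lt.mp h) (hD q (ne_of_lt hq1) _),
        lt_of_le_of_ne (not_lt.mp h') (hD q (ne_of_lt hq1) _)⟩
  have hne : a p.1 ≠ a p.2 := fun h => (ne_of_lt hp1) (ha h)
  have key := cross_either (a p.1) (a p.2) (b q.1).1 (b q.1).2 (b q.2).1 (b q.2).2 hy hne hDD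
  rcases key with h | h
  · refine ⟨(p, (q.1, q.2)), ?_, ?_⟩
    · simp only [hC, coe_filter, mem_univ, true_and, Set.mem_ofPred_eq]
      exact ⟨hp1, ne_of_lt hq1, h⟩
    · simp only [f, min_eq_left hq1.le, max_eq_right hq1.le]
  · refine ⟨(p, (q.2, q.1)), ?_, ?_⟩
    · simp only [hC, coe_filter, mem_univ, true_and, Set.mem_ofPred_eq]
      exact ⟨hp1, ne_of_gt hq1, h⟩
    · simp only [f, min_eq_right hq1.le, max_eq_left hq1.le]

end Vale.Agent.Results.P040.CollinearClass
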